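import Vale.Agent.P073Y.Ac.All2
import Vale.Agent.P073Y.Ac4.All

open Vale.Agent.P073Z.Fin

theorem Vale.Agent.Results.P073.AABallEvans.result :
    ∀ p : ℝ, 1 ≤ p →
      ∀ (Ω Λ : Set R3) (f : R3 → R3) (Df : R3 → Matrix (Fin 3) (Fin 3) ℝ),
        IsBoundedDomain Ω → IsBoundedDomain Λ → IsHomeoOnto f Ω Λ → IsW1p p Ω f Df →
        DiffeoApproximable p Ω Λ f Df :=
  fun p h1 => (lt_or_ge p 3).elim (P073.Ac.ballEvans_lt3 h1) P073.Ac4.ballEvans
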