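import Vale.Agent.P073Z.PLAF

open Vale.Agent.P073Z.Fin

theorem Vale.Agent.Results.P073.ABallEvansBelowTwo.result :
    ∀ p : ℝ, 1 ≤ p → p < 2 →
      ∀ (Ω Λ : Set R3) (f : R3 → R3) (Df : R3 → Matrix (Fin 3) (Fin 3) ℝ),
        IsBoundedDomain Ω → IsBoundedDomain Λ → IsHomeoOnto f Ω Λ → IsW1p p Ω f Df →
        DiffeoApproximable p Ω Λ f Df :=
  fun p h1 h2 => P073.ballEvans p h1 h2
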